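import Crest.Agent.H5.RI.Tower

/-! The abstract family `v ↦ (ρ v, ν v)` used in the final step. -/

set_option autoImplicit false

open MeasureTheory Filter Topology Finset
open Crest.Agent.H2.RP

noncomputable section

namespace Crest.Agent.H5.RI

/-- bounded measurable real functions -/
def BR (v : Cir → ℝ) : Prop := Measurable v ∧ ∃ C, ∀ x, |v x| ≤ C

namespace BR
variable {u v : Cir → ℝ}

theorem int (h : BR v) (m : Measure Cir) [IsFiniteMeasure m] : Integrable v m := by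
  obtain ⟨hm, C, hC⟩ := h
  exact integrable_bdd m hm C hC
theorem const (c : ℝ) : BR fun _ => c := ⟨measurable_const, |c|, fun _ => le_rfl⟩
theorem add (hu : BR u) (hv : BR v) : BR fun x => u x + v x := by
  obtain ⟨hm, C, hC⟩ := hu
  obtain ⟨hm', D, hD⟩ := hv
  exact ⟨hm.add hm', C + D, fun x => (abs_add_le _ _).trans (add_le_add (hC x) (hD x))⟩
theorem sub (hu : BR u) (hv : BR v) : BR fun x => u x - v x := by
  obtain ⟨hm, C, hC⟩ := hu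
  obtain ⟨hm', D, hD⟩ := hv
  exact ⟨hm.sub hm', C + D, fun x => (abs_sub _ _).trans (add_le_add (hC x) (hD x))⟩
theorem mul (hu : BR u) (hv : BR v) : BR fun x => u x * v x := by
  obtain ⟨hm, C, hC⟩ := hu
  obtain ⟨hm', D, hD⟩ := hv
  exact ⟨hm.mul hm', C * D, fun x => by
    rw [abs_mul]; exact mul_le_mul (hC x) (hD x) (abs_nonneg _) ((abs_nonneg _).trans (hC x))⟩
theorem abs (hu : BR u) : BR fun x => |u x| := by
  obtain ⟨hm, C, hC⟩ := hu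
  exact ⟨hm.abs, C, fun x => by rw [abs_abs]; exact hC x⟩
theorem sq (hu : BR u) : BR fun x => u x ^ 2 := by simpa only [pow_two] using hu.mul hu
theorem div (hu : BR u) (c : ℝ) : BR fun x => u x / c := by
  simpa only [div_eq_mul_inv] using hu.mul (const c⁻¹)
theorem shift (hu : BR u) (s : Cir) : BR fun x => u (x + s) := by
  obtain ⟨hm, C, hC⟩ := hu
  exact ⟨hm.comp (measurable_add_const s), C, fun x => hC _⟩
theorem sum {ι : Type*} (s : Finset ι) {g : ι → Cir → ℝ} (h : ∀ i ∈ s, BR (g i)) :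
    BR fun x => ∑ i ∈ s, g i x := by
  classical
  induction s using Finset.induction_on with
  | empty => simpa using const 0
  | insert a s ha ih =>
    simp only [sum_insert ha]
    exact (h a (mem_insert_self _ _)).add (ih fun i hi => h i (mem_insert_of_mem hi))
end BR

/-- the properties of `v ↦ (density, kernel measure)` of `[e^v p]` used in the final step -/
structure Fam (θ : ℝ) (f : Cir → ℝ) (Cm Cl Ci : ℝ) (ρ : (Cir → ℝ) → Cir → ℝ)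
    (ν : (Cir → ℝ) → Measure (Cir × ℤ)) : Prop where
  fin : ∀ v, IsFiniteMeasure (ν v)
  meas : ∀ v, Measurable (ρ v)
  nonneg : ∀ v x, 0 ≤ ρ v x
  le_one : ∀ v x, ρ v x ≤ 1
  src : ∀ v, BR v → ∀ B, MeasurableSet B → (ν v).real {z | z.1 ∈ B} ≤ mu.real B
  tgt : ∀ v, BR v → ∀ B, MeasurableSet B → (ν v).real {z | tg θ z ∈ B} ≤ mu.real B
  off : ∀ v, BR v → ∫ x, ρ v x * (1 - ρ v x) ∂mu ≤ (ν v).real {z | z.2 ≠ 0}
  mono : ∀ v w, BR v → BR w → 0 ≤ ∫ x, (ρ w x - ρ v x) * (w x - v x) ∂mu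
  bonus : ∀ v w, BR v → BR w →
    (ν v).real {z | 2 ≤ |(w (tg θ z) - v (tg θ z)) - (w z.1 - v z.1)|} ≤
      Cm * ∫ x, (ρ w x - ρ v x) * (w x - v x) ∂mu
  lip : ∀ v w, BR v → BR w →
    ∫ x, (ρ w x - ρ v x) ^ 2 ∂mu ≤ Cl * ∫ x, (w x - v x) ^ 2 ∂mu
  inv : ∀ v, BR v → ∀ (n : ℕ) (D Z : Set Cir) (c e : ℝ), MeasurableSet D → MeasurableSet Z →
    0 < c → 0 ≤ e → e ≤ 1 →
    (∀ x ∈ D, Real.exp (v (x + ro θ n) - v x) * ∏ i ∈ range n, f (x + ro θ i) = c) →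
    (∀ x, x ∉ D → x ∉ Z →
      Real.exp (v (x + ro θ n) - v x) * ∏ i ∈ range n, f (x + ro θ i) ≤ e * c) →
    ∫ x in D, ρ v x * (1 - ρ v (x + ro θ n)) ∂mu ≤
      Ci * (∫ x, ρ v x * (1 - ρ v x) ∂mu + e ^ 2 + mu.real Z)

/-- source and target in the same block of the tower -/
def InBlock (θ : ℝ) (A : Set Cir) (L : ℕ) (z : Cir × ℤ) : Prop :=
  ∃ y ∈ A, ∃ i < L, ∃ j < L, z.1 = y + ro θ i ∧ z.2 = (j : ℤ) - i

/-- the size of the moderate exponents -/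
def Xi (L : ℕ) (K lam : ℝ) : ℝ :=
  (L * K + 4 * ⌈(L + L * K + 1) / lam⌉₊ * L) + (L * K + 4 * ⌈(L + L * K + 1) / lam⌉₊ * L + 1) / lam ^ 2

/-- statement of the final step -/
def T_final : Prop :=
  ∀ (θ : ℝ) (f : Cir → ℝ) (Cm Cl Ci : ℝ) (ρ : (Cir → ℝ) → Cir → ℝ)
    (ν : (Cir → ℝ) → Measure (Cir × ℤ)), Fam θ f Cm Cl Ci ρ ν → 0 ≤ Cm → 1 ≤ Cl → 0 ≤ Ci →
    Measurable f → (∀ x, 0 ≤ f x ∧ f x ≤ 1) →
    ∀ (t lam K : ℝ) (A : Set Cir) (L : ℕ), 0 ≤ t → t ≤ 1 → 0 < lam → lam ≤ 1 → 0 ≤ K → 0 < L →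
    Tw θ A L → mu.real (YY θ A L)ᶜ ≤ lam →
    (∀ y ∈ A, ∀ i < L, Real.exp (-K) ≤ f (y + ro θ i)) →
    (∀ y ∈ A, ∀ m, L ≤ m → m < 2 * L → y + ro θ m ∈ A →
      ∃ i, L ≤ i ∧ i < m ∧ f (y + ro θ i) ≤ Real.exp (-(4 * Xi L K lam))) →
    (∀ v, Measurable v → (∀ x, |v x| ≤ Xi L K lam) →
      (ν v).real {z | z.1 ∈ YY θ A L ∧ tg θ z ∈ YY θ A L ∧ ¬ InBlock θ A L z} ≤ lam) →
    (∀ φ : Cir → ℝ, Measurable φ → (∀ x, |φ x| ≤ 1) →
      ∫ x, |φ (x + (θ : Cir)) - φ x| ∂mu ≤ 6 / L →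
      |∫ x, ρ (fun _ => 0) x * φ x ∂mu - t * ∫ x, φ x ∂mu| ≤ lam) →
    t * (1 - t) ≤ (9 + 6 * Ci + (1 + 2 * Ci) * (6 * Cm + 3)) * lam

end Crest.Agent.H5.RI
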