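import Crest.Agent.H5.RI.Geo

/-! The final step. -/

set_option autoImplicit false

open MeasureTheory Filter Topology Finset
open Crest.Agent.H2.RP Crest.Agent.H9.RI

noncomputable section

namespace Crest.Agent.H5.RI

theorem abs_int_le {g : Cir → ℝ} {C : ℝ} (h : ∀ x, |g x| ≤ C) : |∫ x, g x ∂mu| ≤ C := by
  simpa using norm_integral_le_of_norm_le_const (μ := mu) (f := g) (C := C) (Eventually.of_forall h)

theorem int3 {u v w : Cir → ℝ} (hu : BR u) (hv : BR v) (hw : BR w) (a b c : ℝ) {g : Cir → ℝ}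
    (h : ∀ x, g x = a * u x + b * v x + c * w x) :
    ∫ x, g x ∂mu = a * ∫ x, u x ∂mu + b * ∫ x, v x ∂mu + c * ∫ x, w x ∂mu := by
  simp only [h]
  rw [integral_add _ ((hw.int mu).const_mul c), integral_add ((hu.int mu).const_mul a)
    ((hv.int mu).const_mul b), integral_const_mul, integral_const_mul, integral_const_mul]
  exact ((hu.int mu).const_mul a).add ((hv.int mu).const_mul b)

theorem int2 {u v : Cir → ℝ} (hu : BR u) (hv : BR v) (a b : ℝ) {g : Cir → ℝ}
    (h : ∀ x, g x = a * u x + b * v x) :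
    ∫ x, g x ∂mu = a * ∫ x, u x ∂mu + b * ∫ x, v x ∂mu := by
  rw [int3 hu hv hv a b 0 fun x => by rw [h]; ring]; ring

theorem int_le {u v : Cir → ℝ} (hu : BR u) (hv : BR v) (h : ∀ x, u x ≤ v x) :
    ∫ x, u x ∂mu ≤ ∫ x, v x ∂mu := integral_mono (hu.int mu) (hv.int mu) h

theorem BR.ind {u : Cir → ℝ} (hu : BR u) {S : Set Cir} (hS : MeasurableSet S) :
    BR (S.indicator u) := by
  obtain ⟨hm, C, hC⟩ := hu
  refine ⟨hm.indicator hS, C, fun x => ?_⟩
  by_cases h : x ∈ S
  · rw [Set.indicator_of_mem h]; exact hC x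
  · rw [Set.indicator_of_notMem h, abs_zero]; exact (abs_nonneg _).trans (hC x)

theorem int_ind {S : Set Cir} (hS : MeasurableSet S) :
    ∫ x, S.indicator (fun _ => (1 : ℝ)) x ∂mu = mu.real S := by
  rw [integral_indicator hS]; simp

theorem BR.comp {u : Cir → ℝ} (hu : BR u) {π : Cir → Cir} (hπ : Measurable π) :
    BR fun x => u (π x) := by
  obtain ⟨hm, C, hC⟩ := hu
  exact ⟨hm.comp hπ, C, fun x => hC _⟩

variable {θ : ℝ} {D : Set Cir} {L : ℕ} {pos rem : Cir → ℕ} {π : Cir → Cir}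

/-- variation of a function whose steps are at most `c` inside blocks and `1` at cuts -/
theorem var_le (mD : MeasurableSet D) {ψ : Cir → ℝ} (hψ : BR ψ) {c d : ℝ} (hc : 0 ≤ c)
    (h1 : ∀ x, mv θ x 1 ∉ D → |ψ (mv θ x 1) - ψ x| ≤ c) (h2 : ∀ x, |ψ (mv θ x 1) - ψ x| ≤ d) :
    ∫ x, |ψ (mv θ x 1) - ψ x| ∂mu ≤ c + d * mu.real D := by
  have hi := ((BR.const 1).ind mD).mv (θ := θ) 1
  refine (int_le ((hψ.mv 1).sub hψ).abs ((BR.const c).add ((BR.const d).mul hi)) fun x => ?_).trans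
    (le_of_eq ?_)
  · by_cases hx : mv θ x 1 ∈ D
    · rw [Set.indicator_of_mem hx]; linarith [h2 x]
    · rw [Set.indicator_of_notMem hx]; linarith [h1 x hx]
  · rw [int2 (BR.const 1) hi c d fun x => by ring, int_mv (D.indicator fun _ => (1 : ℝ)),
      int_ind mD]
    simp

/-- nearly monotone in blocks with small moment: close to a block-constant function -/
theorem apx (g : Geo θ D L pos rem π) (mD : MeasurableSet D) {ρ : Cir → ℝ} (mρ : Measurable ρ)
    (r01 : ∀ x, 0 ≤ ρ x ∧ ρ x ≤ 1) {Z : Set Cir} (mZ : MeasurableSet Z)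
    (hmono : ∀ S, MeasurableSet S → (∀ x ∈ S, x ∉ Z ∧ mv θ x 1 ∉ D) →
      ∫ x in S, ρ x ∂mu - mu.real Z ≤ ∫ x in S, ρ (mv θ x 1) ∂mu) (a : ℕ) (ha : 0 < a) :
    ∫ x, |ρ x - ρ (mv θ (π x) a)| ∂mu ≤ 2 * a * mu.real D +
      L / a ^ 2 * (∫ x, ρ x * ((pos x : ℝ) - rem x + 1) ∂mu + 4 * L ^ 2 * mu.real Z) := by
  have bρ : BR ρ := ⟨mρ, 1, fun x => abs_le.2 ⟨by linarith [r01 x], (r01 x).2⟩⟩
  set Th : Cir → ℝ := fun x => (pos x : ℝ) * rem x with hTh
  have Th0 : ∀ x, 0 ≤ Th x := fun x => by positivity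
  have ThL : ∀ x, Th x ≤ L ^ 2 := fun x => by
    have h1 : (pos x : ℝ) ≤ L := by exact_mod_cast (g.pos_lt x).le
    have h2 : (rem x : ℝ) ≤ L := by exact_mod_cast g.rem_le x
    rw [sq]; exact mul_le_mul h1 h2 (by positivity) (by positivity)
  have bT : BR Th := ⟨(measurable_from_top.comp g.mpos).mul (measurable_from_top.comp g.mrem),
    L ^ 2, fun x => by rw [abs_of_nonneg (Th0 x)]; exact ThL x⟩
  have cob : ∀ x, (pos x : ℝ) - rem x + 1 = Th x - Th (mv θ x 1) := fun x => by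
    simp only [hTh]
    by_cases hx : mv θ x 1 ∈ D
    · rw [(g.cut x hx).1, (g.cut x hx).2]; push_cast; ring
    · rw [(g.step x hx).1, ← (g.step x hx).2]; push_cast; ring
  have e1 : ∫ x, ρ x * ((pos x : ℝ) - rem x + 1) ∂mu =
      ∫ x, (ρ (mv θ x 1) - ρ x) * Th (mv θ x 1) ∂mu := by
    have q1 := int2 (bρ.mul bT) (bρ.mul (bT.mv (θ := θ) 1)) 1 (-1)
      (g := fun x => ρ x * ((pos x : ℝ) - rem x + 1)) fun x => by rw [cob]; ring
    have q2 := int2 ((bρ.mul bT).mv (θ := θ) 1) (bρ.mul (bT.mv (θ := θ) 1)) 1 (-1)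
      (g := fun x => (ρ (mv θ x 1) - ρ x) * Th (mv θ x 1)) fun x => by ring
    rw [q1, q2, int_mv (fun x => ρ x * Th x)]
  set S : Set Cir := {x | x ∉ Z ∧ mv θ x 1 ∉ D ∧ ρ (mv θ x 1) < ρ x} with hS
  have mS : MeasurableSet S := mZ.compl.inter ((mv_meas 1 mD).compl.inter
    (measurableSet_lt (mρ.comp (mv_meas 1)) mρ))
  have bS := (bρ.sub (bρ.mv (θ := θ) 1)).ind mS
  have bZ := (BR.const 1).ind mZ
  have e2 : ∫ x, S.indicator (fun x => ρ x - ρ (mv θ x 1)) x ∂mu ≤ mu.real Z := by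
    have := hmono S mS fun x hx => ⟨hx.1, hx.2.1⟩
    rw [integral_indicator mS, integral_sub (bρ.int _) ((bρ.mv 1).int _)]
    linarith
  set Φ : Cir → ℝ := fun x => |ρ (mv θ x 1) - ρ x| * Th (mv θ x 1) with hΦ
  have bΦ : BR Φ := ((bρ.mv 1).sub bρ).abs.mul (bT.mv 1)
  have b0 := ((bρ.mv (θ := θ) 1).sub bρ).mul (bT.mv (θ := θ) 1)
  have e3 : ∫ x, Φ x ∂mu ≤ ∫ x, ρ x * ((pos x : ℝ) - rem x + 1) ∂mu + 4 * L ^ 2 * mu.real Z := by
    refine (int_le bΦ (b0.add (((BR.const (2 * L ^ 2)).mul bS).add ((BR.const (2 * L ^ 2)).mul bZ)))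
      fun x => ?_).trans ?_
    · simp only [hΦ]
      have t0 := Th0 (mv θ x 1)
      have t1 := ThL (mv θ x 1)
      have i1 : 0 ≤ S.indicator (fun x => ρ x - ρ (mv θ x 1)) x :=
        Set.indicator_apply_nonneg fun hx => sub_nonneg.2 hx.2.2.le
      have i2 : 0 ≤ Z.indicator (fun _ => (1 : ℝ)) x := Set.indicator_apply_nonneg fun _ => zero_le_one
      have hL : (0 : ℝ) ≤ L ^ 2 := by positivity
      rcases le_or_gt (ρ x) (ρ (mv θ x 1)) with h | h
      · rw [abs_of_nonneg (sub_nonneg.2 h)]; nlinarith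
      · rw [abs_of_neg (sub_neg.2 h)]
        by_cases hZ : x ∈ Z
        · rw [Set.indicator_of_mem hZ]
          have := r01 x
          have := r01 (mv θ x 1)
          nlinarith
        · by_cases hD : mv θ x 1 ∈ D
          · have : Th (mv θ x 1) = 0 := by simp [hTh, (g.cut x hD).1]
            rw [this]; nlinarith
          · rw [Set.indicator_of_mem (show x ∈ S from ⟨hZ, hD, h⟩)]
            nlinarith
    · rw [int3 b0 bS bZ 1 (2 * L ^ 2) (2 * L ^ 2) fun x => by ring, int_ind mZ, e1]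
      have hL : (0 : ℝ) ≤ L ^ 2 := by positivity
      nlinarith
  have mB : MeasurableSet {x | pos x < a ∨ rem x < a} :=
    (measurableSet_lt g.mpos measurable_const).union (measurableSet_lt g.mrem measurable_const)
  have bB := (BR.const 1).ind mB
  have bs : BR fun x => ∑ i ∈ range L, Φ (mv θ x (-((i : ℤ) + 1))) := BR.sum _ fun i _ => bΦ.mv _
  have ha' : (0 : ℝ) < (a : ℝ) ^ 2 := by positivity
  refine (int_le (bρ.sub ((bρ.mv a).comp g.mπ)).abs (bB.add ((BR.const (1 / a ^ 2)).mul bs))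
    fun x => ?_).trans ?_
  · have s0 : 0 ≤ 1 / (a : ℝ) ^ 2 * ∑ i ∈ range L, Φ (mv θ x (-((i : ℤ) + 1))) :=
      mul_nonneg (by positivity) (sum_nonneg fun i _ => mul_nonneg (abs_nonneg _) (Th0 _))
    by_cases hx : x ∈ {x | pos x < a ∨ rem x < a}
    · rw [Set.indicator_of_mem hx]
      have := r01 x
      have := r01 (mv θ (π x) a)
      have : |ρ x - ρ (mv θ (π x) a)| ≤ 1 := abs_le.2 ⟨by linarith, by linarith⟩
      linarith
    · rw [Set.indicator_of_notMem hx, zero_add, one_div, ← div_eq_inv_mul, le_div_iff₀ ha', mul_comm]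
      have hx' : ¬ (pos x < a ∨ rem x < a) := hx
      exact g.tele ρ a x (by omega) (by omega)
  · rw [int2 bB bs 1 (1 / a ^ 2) fun x => by ring, int_ind mB,
      integral_finsetSum _ fun i _ => (bΦ.mv _).int mu]
    simp only [int_mv Φ, sum_const, card_range, nsmul_eq_mul]
    have h1 := g.meas_small mD a
    have h2 : 1 / (a : ℝ) ^ 2 * (L * ∫ x, Φ x ∂mu) ≤ L / a ^ 2 *
        (∫ x, ρ x * ((pos x : ℝ) - rem x + 1) ∂mu + 4 * L ^ 2 * mu.real Z) := by
      rw [← mul_assoc, show 1 / (a : ℝ) ^ 2 * L = L / a ^ 2 by ring]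
      exact mul_le_mul_of_nonneg_left e3 (by positivity)
    linarith

theorem off_eq {f : Cir → ℝ} {t : ℝ} (F : H9.RI.Fam θ f t) {v : Cir → ℝ} {R : ℝ} (hv : RB v R) :
    ∫ x, F.ρ v x * (1 - F.ρ v x) ∂mu = (F.ν v).real {z | z.2 ≠ 0} := by
  have := F.fin v
  have bρ : BR (F.ρ v) := ⟨F.mρ v, 1, fun x => abs_le.2 ⟨by linarith [F.r01 v x], (F.r01 v x).2⟩⟩
  have h1 := F.left v R hv Set.univ MeasurableSet.univ
  have h2 := F.zero v R hv
  have hm : MeasurableSet {z : Cir × ℤ | z.2 = 0} :=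
    measurable_snd (MeasurableSet.of_discrete (s := {n : ℤ | n = 0}))
  have h3 := measureReal_add_measureReal_compl (μ := F.ν v) hm
  have e : EE θ Set.univ Set.univ = Set.univ := by ext z; simp [EE]
  rw [e, Measure.restrict_univ] at h1
  rw [int2 bρ bρ.sq 1 (-1) fun x => by ring]
  change _ = (F.ν v).real {z : Cir × ℤ | z.2 = 0}ᶜ
  linarith

set_option maxHeartbeats 1600000 in
theorem t_final : H9.RI.T_final := by
  intro hfix L K
  set k0 : ℝ := L * K + 1 with hk0
  set W : ℝ := L * K + (k0 + 2 * L ^ 2) * L with hW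
  set ε : ℝ := 1 / (L ^ 2 * (W + 1)) with hε
  refine ⟨2 * (W + 1 / ε) + (k0 + 2 * L ^ 2), ?_⟩
  intro θ f t F A D γ lam mf f01 hK hB hA γ0 γ1 hγL hslow hH
  have γ3 : γ ^ 3 ≤ γ := by
    have := pow_le_pow_of_le_one γ0.le γ1 (show 1 ≤ 3 by norm_num); simpa using this
  have L0 : (0 : ℝ) ≤ L := by positivity
  have γL : 1 ≤ γ * L := hγL.trans (mul_le_mul_of_nonneg_right γ3 L0)
  have L1 : (1 : ℝ) ≤ L := by nlinarith
  have Lp : (0 : ℝ) < L := by linarith
  have iL : 1 / (L : ℝ) ≤ γ := by rw [div_le_iff₀ Lp]; exact γL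
  have iL1 : 1 / (L : ℝ) ≤ 1 := iL.trans γ1
  have k01 : 1 ≤ k0 := by rw [hk0]; nlinarith [mul_nonneg L0 hK]
  have W0 : 0 ≤ W := by positivity
  have ε0 : 0 < ε := by positivity
  have ε1 : ε ≤ 1 := by
    rw [hε, div_le_one (by positivity)]; nlinarith [mul_nonneg (sq_nonneg (L : ℝ)) W0]
  have εW : ε * (W + 1) = 1 / L ^ 2 := by rw [hε]; field_simp
  obtain ⟨pos, rem, π, g⟩ := exists_geo hB.mD hB.hit
  obtain ⟨Z, mZ, hZ, hcut, hin⟩ := hB.exZ
  have hD := hB.small
  have bρ : ∀ v, BR (F.ρ v) := fun v =>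
    ⟨F.mρ v, 1, fun x => abs_le.2 ⟨by linarith [F.r01 v x], (F.r01 v x).2⟩⟩
  -- centred position
  set pc : Cir → ℝ := fun x => ((pos x : ℝ) - rem x + 1) / 2 with hpc
  have pcL : ∀ x, |pc x| ≤ L / 2 := fun x => by
    have h1 : (pos x : ℝ) + 1 ≤ L := by exact_mod_cast g.pos_lt x
    have h2 : (rem x : ℝ) ≤ L := by exact_mod_cast g.rem_le x
    have h3 : (1 : ℝ) ≤ rem x := by exact_mod_cast g.rem_pos x
    have h4 : (0 : ℝ) ≤ pos x := by positivity
    simp only [hpc]; rw [abs_le]; constructor <;> linarith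
  have mpc : Measurable pc :=
    (((measurable_from_top.comp g.mpos).sub (measurable_from_top.comp g.mrem)).add_const 1).div_const 2
  have bpc : BR pc := ⟨mpc, _, pcL⟩
  have pcs : ∀ x, mv θ x 1 ∉ D → pc (mv θ x 1) = pc x + 1 := fun x hx => by
    simp only [hpc]
    rw [(g.step x hx).1, ← (g.step x hx).2]; push_cast; ring
  -- flattening
  set a : Cir → ℝ := fun x => max 0 (min K (-Real.log (f x))) with ha
  have ma : Measurable a := measurable_const.max (measurable_const.min mf.log.neg)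
  have a0 : ∀ x, 0 ≤ a x := fun x => le_max_left _ _
  have aK : ∀ x, a x ≤ K := fun x => max_le hK (min_le_left _ _)
  set fl : Cir → ℝ := fun x => ∑ i ∈ range (pos x), a (mv θ x (-((i : ℤ) + 1))) with hfl
  have mfl : Measurable fl := by
    have h : Measurable fun z : Cir × ℕ => ∑ i ∈ range z.2, a (mv θ z.1 (-((i : ℤ) + 1))) :=
      measurable_from_prod_countable_left fun k =>
        Finset.measurable_sum (range k) fun i _ => ma.comp (mv_meas _)
    have h' : Measurable fun x : Cir => (x, pos x) := measurable_id.prodMk g.mpos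
    exact h.comp h'
  have flb : ∀ x, |fl x| ≤ L * K := fun x => by
    rw [abs_of_nonneg (sum_nonneg fun i _ => a0 _)]
    refine (sum_le_sum fun i _ => aK _).trans ?_
    rw [sum_const, card_range, nsmul_eq_mul]
    exact mul_le_mul_of_nonneg_right (by exact_mod_cast (g.pos_lt x).le) hK
  have bfl : BR fl := ⟨mfl, _, flb⟩
  have fls : ∀ x, mv θ x 1 ∉ D → fl (mv θ x 1) = fl x + a x := fun x hx => by
    simp only [hfl]
    rw [(g.step x hx).1, sum_range_succ']
    congr 1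
    · refine sum_congr rfl fun i _ => ?_
      rw [mv_mv]; congr 2
    · rw [mv_mv]; simp [mv_zero]
  set κ : ℕ → ℝ := fun i => k0 + 2 * i with hκ
  have κ1 : ∀ i, k0 ≤ κ i := fun i => by simp only [hκ]; have : (0 : ℝ) ≤ i := by positivity
                                         linarith
  set w : ℕ → Cir → ℝ := fun i x => fl x - κ i * pc x with hw
  have wb : ∀ i x, |w i x| ≤ L * K + κ i * L := fun i x => by
    refine (abs_sub _ _).trans (add_le_add (flb x) ?_)
    rw [abs_mul, abs_of_nonneg (by linarith [κ1 i])]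
    exact mul_le_mul_of_nonneg_left (by linarith [pcL x]) (by linarith [κ1 i])
  have rw' : ∀ i, RB (w i) (L * K + κ i * L) := fun i => ⟨mfl.sub (mpc.const_mul _), wb i⟩
  choose s hs hfx using fun i =>
    hfix θ f t F π (w i) _ ε (ε / L) g.mπ (rw' i) ε0 (by positivity)
  set v : ℕ → Cir → ℝ := fun i y => w i y + s i (π y) with hv
  have bs : ∀ i, BR fun x => s i (π x) := fun i => (BR.rb (hs i)).comp g.mπ
  have rv : ∀ i, RB (v i) (L * K + κ i * L + 1 / ε) := fun i =>
    ⟨(rw' i).1.add (bs i).1, fun x => (abs_add_le _ _).trans (add_le_add (wb i x) ((hs i).2 _))⟩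
  have r0 : RB (0 : Cir → ℝ) 0 := ⟨measurable_const, fun x => by simp⟩
  have mono0 : ∀ u v R R', RB u R → RB v R' →
      0 ≤ ∫ x, (F.ρ v x - F.ρ u x) * (v x - u x) ∂mu := fun u v R R' hu hv =>
    le_trans (by positivity) (F.bonus u v R R' hu hv)
  set P : ℕ → ℝ := fun i => ∫ x, F.ρ (v i) x * pc x ∂mu with hP
  have Pb : ∀ i, |P i| ≤ L / 2 := fun i => abs_int_le fun x => by
    rw [abs_mul, abs_of_nonneg (F.r01 _ x).1]
    exact (mul_le_of_le_one_left (abs_nonneg _) (F.r01 _ x).2).trans (pcL x)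
  -- a plateau
  obtain ⟨i, hi, hPi⟩ : ∃ i < L ^ 2, P i - P (i + 1) ≤ 1 / L := by
    by_contra hc
    push Not at hc
    have h1 : ∑ i ∈ range (L ^ 2), (1 / L : ℝ) < ∑ i ∈ range (L ^ 2), (P i - P (i + 1)) :=
      sum_lt_sum_of_nonempty ⟨0, mem_range.2 (by have : 0 < L := by exact_mod_cast Lp
                                                 positivity)⟩ fun i hi => hc i (mem_range.1 hi)
    rw [sum_range_sub', sum_const, card_range, nsmul_eq_mul] at h1
    have h2 : ((L ^ 2 : ℕ) : ℝ) * (1 / L) = L := by push_cast; field_simp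
    linarith [abs_le.1 (Pb 0), abs_le.1 (Pb (L ^ 2))]
  have κi : κ i ≤ k0 + 2 * L ^ 2 := by
    have : (i : ℝ) ≤ L ^ 2 := by exact_mod_cast hi.le
    simp only [hκ]; linarith
  have wW : L * K + κ i * L ≤ W := by
    rw [hW]; exact add_le_add le_rfl (mul_le_mul_of_nonneg_right κi L0)
  have vb : ∀ x, |v i x| ≤ W + 1 / ε := fun x => ((rv i).2 x).trans (by linarith)
  have ie : 0 < 1 / ε := by positivity
  set ρ := F.ρ (v i) with hρ
  set ρ0 := F.ρ 0 with hρ0
  have bd : BR fun x => ρ x - ρ0 x := (bρ _).sub (bρ _)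
  have db : ∀ x, |ρ x - ρ0 x| ≤ 1 := fun x => by
    have := F.r01 (v i) x
    have := F.r01 0 x
    rw [abs_le]; constructor <;> linarith
  have be : ∀ j, BR fun x => ε * s j (π x) + F.ρ (v j) x - ρ0 x := fun j =>
    (((BR.const ε).mul (bs j)).add (bρ _)).sub (bρ _)
  have hfx' : ∀ j ψ Q, RB ψ Q →
      |∫ x, (ε * s j (π x) + F.ρ (v j) x - ρ0 x) * ψ (π x) ∂mu| ≤ ε / L * Q := hfx
  -- (a) in-block off-diagonal mass
  have hoff : ∫ x, ρ x * (1 - ρ x) ∂mu ≤ lam + 24 * γ := by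
    have := F.fin (v i)
    have rψ : RB (fun y => s (i + 1) y - s i y) (2 / ε) :=
      ⟨(hs _).1.sub (hs _).1, fun x => (abs_sub _ _).trans (by
        have := (hs (i + 1)).2 x
        have := (hs i).2 x
        rw [show 2 / ε = 1 / ε + 1 / ε by ring]; linarith)⟩
    have bψ := (bs (i + 1)).sub (bs i)
    have f1 := abs_le.1 (hfx' (i + 1) _ _ rψ)
    have f2 := abs_le.1 (hfx' i _ _ rψ)
    have e0 : ε / L * (2 / ε) = 2 * (1 / L) := by field_simp
    rw [e0] at f1 f2
    have q1 := int3 ((be (i + 1)).mul bψ) ((be i).mul bψ) bψ.sq 1 (-1) (-ε)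
      (g := fun x => (F.ρ (v (i + 1)) x - ρ x) * (s (i + 1) (π x) - s i (π x))) fun x => by
        simp only [hρ]; ring
    have q2 := int3 ((bρ (v (i + 1))).mul bpc) ((bρ (v i)).mul bpc)
      (((bρ (v (i + 1))).sub (bρ (v i))).mul bψ) (-2) 2 1
      (g := fun x => (F.ρ (v (i + 1)) x - F.ρ (v i) x) * (v (i + 1) x - v i x)) fun x => by
        simp only [hv, hw, hκ]; push_cast; ring
    have q3 : 0 ≤ ε * ∫ x, (s (i + 1) (π x) - s i (π x)) ^ 2 ∂mu :=
      mul_nonneg ε0.le (integral_nonneg fun x => sq_nonneg _)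
    have hb := F.bonus _ _ _ _ (rv i) (rv (i + 1))
    have hsub : {z : Cir × ℤ | z.2 ≠ 0} ⊆ {z | 2 ≤ |(v (i + 1) (mv θ z.1 z.2) - v i (mv θ z.1 z.2)) -
        (v (i + 1) z.1 - v i z.1)|} ∪ (SB θ D)ᶜ := fun z hz => by
      by_cases h : z ∈ SB θ D
      · left
        obtain ⟨h1, h2⟩ := g.sb h
        have e : (v (i + 1) (mv θ z.1 z.2) - v i (mv θ z.1 z.2)) - (v (i + 1) z.1 - v i z.1) =
            -2 * z.2 := by
          simp only [hv, hw, hκ, hpc, h1]
          push_cast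
          linear_combination (-1) * h2
        have h3 : (1 : ℝ) ≤ |(z.2 : ℝ)| := by exact_mod_cast Int.one_le_abs hz
        rw [Set.mem_setOf_eq, e, abs_mul]
        norm_num; linarith
      · exact Or.inr h
    have h4 := (measureReal_mono (μ := F.ν (v i)) hsub).trans (measureReal_union_le _ _)
    have h5 := hH (v i) ⟨(rv i).1, fun x => (vb x).trans (by nlinarith [sq_nonneg (L : ℝ)])⟩
    rw [hρ, off_eq F (rv i)]
    simp only [hP] at hPi
    rw [q2, q1] at hb
    linarith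
  -- (b) monotonicity against `0`
  have hm := mono0 _ _ _ _ r0 (rv i)
  have q1 := int3 (bd.mul bfl) (bd.mul bpc) (bd.mul (bs i)) 1 (-κ i) 1
    (g := fun x => (F.ρ (v i) x - F.ρ 0 x) * (v i x - (0 : Cir → ℝ) x)) fun x => by
      simp only [hv, hw, hρ, hρ0, Pi.zero_apply]; ring
  have q2 := int2 ((be i).mul (bs i)) (bs i).sq 1 (-ε)
    (g := fun x => (ρ x - ρ0 x) * s i (π x)) fun x => by simp only [hρ]; ring
  have f1 := abs_le.1 (hfx' i _ _ (hs i))
  have e0 : ε / L * (1 / ε) = 1 / L := by field_simp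
  rw [e0] at f1
  have c1 : |∫ x, (ρ x - ρ0 x) * fl x ∂mu| ≤ L * K := abs_int_le fun x => by
    rw [abs_mul]; exact (mul_le_of_le_one_left (abs_nonneg _) (db x)).trans (flb x)
  have c2 : |∫ x, (ρ x - ρ0 x) * pc x ∂mu| ≤ L := abs_int_le fun x => by
    rw [abs_mul]; exact (mul_le_of_le_one_left (abs_nonneg _) (db x)).trans (by linarith [pcL x])
  set S2 := ∫ x, s i (π x) ^ 2 ∂mu with hS2
  have S0 : 0 ≤ S2 := integral_nonneg fun x => sq_nonneg _
  set X := ∫ x, (ρ x - ρ0 x) * pc x ∂mu with hX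
  rw [q1, q2] at hm
  have κ0 : 0 < κ i := by linarith [κ1 i]
  have hS : ε * S2 ≤ W + 1 := by
    have := mul_le_mul_of_nonneg_left (abs_le.1 c2).1 κ0.le
    linarith [abs_le.1 c1]
  have hX1 : X ≤ 1 := by
    by_contra hc
    push Not at hc
    have := mul_lt_mul_of_pos_left hc κ0
    have := mul_nonneg ε0.le S0
    linarith [abs_le.1 c1, κ1 i]
  have hεs : ∫ x, |ε * s i (π x)| ∂mu ≤ 1 / L := by
    refine (int_le ((BR.const ε).mul (bs i)).abs (((BR.const (ε ^ 2 * L / 2)).mul (bs i).sq).add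
      (BR.const (1 / (2 * L)))) fun x => ?_).trans ?_
    · have h := sq_nonneg (|ε * s i (π x)| * L - 1)
      have e : ε ^ 2 * L / 2 * s i (π x) ^ 2 + 1 / (2 * L) =
          ((|ε * s i (π x)| * L) ^ 2 + 1) / (2 * L) := by
        rw [mul_pow, sq_abs]; field_simp
      rw [e, le_div_iff₀ (by positivity)]; nlinarith
    · rw [int2 (bs i).sq (BR.const 1) (ε ^ 2 * L / 2) (1 / (2 * L)) fun x => by ring]
      have h1 : ε ^ 2 * L / 2 * S2 ≤ 1 / (2 * L) := by
        calc ε ^ 2 * L / 2 * S2 = ε * L / 2 * (ε * S2) := by ring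
          _ ≤ ε * L / 2 * (W + 1) := mul_le_mul_of_nonneg_left hS (by positivity)
          _ = L / 2 * (ε * (W + 1)) := by ring
          _ = 1 / (2 * L) := by rw [εW]; field_simp
      have h2 : (1 : ℝ) / L = 1 / (2 * L) + 1 / (2 * L) := by field_simp; ring
      simp only [integral_const, probReal_univ, smul_eq_mul, mul_one]
      linarith
  have mean0 : ∫ y, ρ0 y ∂mu = t := F.mean 0 0 r0
  have mean1 : ∫ y, ρ y ∂mu = t := F.mean _ _ (rv i)
  have t0 : 0 ≤ t := mean0 ▸ integral_nonneg fun x => (F.r01 0 x).1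
  have t1 : t ≤ 1 := by
    have := abs_int_le (g := ρ0) (C := 1) fun x => by
      rw [abs_of_nonneg (F.r01 0 x).1]; exact (F.r01 0 x).2
    rw [mean0] at this; exact (abs_le.1 this).2
  have bd0 : BR fun x => ρ0 x - t := (bρ _).sub (BR.const t)
  -- (c) the moment of `ρ0`
  have hpc0 : ∫ x, pc x ∂mu = 0 := by
    have bT : BR fun x => (pos x : ℝ) * rem x :=
      ⟨(measurable_from_top.comp g.mpos).mul (measurable_from_top.comp g.mrem), L * L, fun x => by
        rw [abs_of_nonneg (by positivity)]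
        exact mul_le_mul (by exact_mod_cast (g.pos_lt x).le) (by exact_mod_cast g.rem_le x)
          (by positivity) L0⟩
    rw [int2 bT (bT.mv (θ := θ) 1) (1 / 2) (-1 / 2) (g := pc) fun x => by
      simp only [hpc]
      by_cases hx : mv θ x 1 ∈ D
      · rw [(g.cut x hx).1, (g.cut x hx).2]; push_cast; ring
      · rw [(g.step x hx).1, ← (g.step x hx).2]; push_cast; ring,
      int_mv fun x => (pos x : ℝ) * rem x]
    ring
  have hP0 : ∫ x, (ρ0 x - t) * pc x ∂mu ≤ γ ^ 3 * L := by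
    have hb : ∀ x, |pc x / L| ≤ 1 / 2 := fun x => by
      rw [abs_div, abs_of_pos Lp, div_le_iff₀ Lp]; linarith [pcL x]
    have := hslow (fun x => pc x / L) ⟨mpc.div_const _, fun x => by linarith [hb x]⟩
      ((var_le hB.mD (bpc.div L) (c := 1 / L) (d := 1) (by positivity) (fun x hx => by
        rw [pcs x hx, show (pc x + 1) / L - pc x / L = 1 / L by ring, abs_of_pos (by positivity)])
        fun x => (abs_sub _ _).trans (by linarith [hb x, hb (mv θ x 1)])).trans (by
          rw [show (20 : ℝ) / L = 1 / L + 8 / L + 11 / L by ring]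
          have : (0 : ℝ) ≤ 11 / L := by positivity
          linarith))
    rw [mean0, int2 (bd0.mul bpc) (bd0.mul bpc) (1 / L) 0 fun x => by ring] at this
    have h2 := (abs_le.1 this).2
    rw [zero_mul, add_zero, one_div, ← div_eq_inv_mul, div_le_iff₀ Lp] at h2
    exact h2
  have hmom : ∫ x, ρ x * ((pos x : ℝ) - rem x + 1) ∂mu ≤ 2 * (γ ^ 3 * L + 1) := by
    rw [int3 (bd.mul bpc) (bd0.mul bpc) bpc 2 2 (2 * t) fun x => by simp only [hpc]; ring, hpc0]
    linarith
  -- (d) approximation by a block-constant function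
  have hapx := apx g hB.mD (F.mρ (v i)) (F.r01 (v i)) mZ (fun S mS hS => by
    have hin' : ∀ x ∉ Z, mv θ x 1 ∉ D →
        f x * Real.exp (v i (mv θ x 1) - v i x + κ i) = 1 := fun x hx hD => by
      have h1 := hin x hx hD
      have h2 : 0 < f x := (Real.exp_pos _).trans_le h1
      have h3 : -Real.log (f x) ≤ K := by
        have := Real.log_le_log (Real.exp_pos _) h1
        rw [Real.log_exp] at this; linarith
      have h4 : 0 ≤ -Real.log (f x) := neg_nonneg.2 (Real.log_nonpos h2.le (f01 x).2)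
      have e : v i (mv θ x 1) - v i x + κ i = -Real.log (f x) := by
        simp only [hv, hw]
        rw [fls x hD, pcs x hD, g.π_step hD]
        simp only [ha]
        rw [min_eq_right h3, max_eq_right h4]; ring
      rw [e, Real.exp_neg, Real.exp_log h2, mul_inv_cancel₀ h2.ne']
    refine F.mono (v i) _ (κ i) Z S (rv i) mZ mS (fun x hx => ?_)
      fun x hx => ⟨(hS x hx).1, hin' x (hS x hx).1 (hS x hx).2⟩
    by_cases hD : mv θ x 1 ∈ D
    · refine (mul_le_mul_of_nonneg_right (hcut x hx hD) (Real.exp_pos _).le).trans ?_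
      rw [← Real.exp_add, Real.exp_le_one_iff]
      linarith [abs_le.1 (vb x), abs_le.1 (vb (mv θ x 1))]
    · exact (hin' x hx hD).le) ⌈γ * L⌉₊ (Nat.ceil_pos.2 (by linarith))
  set m := ⌈γ * L⌉₊ with hm'
  have m1 : γ * L ≤ m := Nat.le_ceil _
  have m2 : (m : ℝ) ≤ 2 * (γ * L) := by
    have := (Nat.ceil_lt_add_one (show 0 ≤ γ * L by linarith)).le
    linarith
  have hap : ∫ x, |ρ x - ρ (mv θ (π x) m)| ∂mu ≤ 40 * γ := by
    refine hapx.trans ?_
    have h1 : 2 * (m : ℝ) * mu.real D ≤ 32 * γ := by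
      calc 2 * (m : ℝ) * mu.real D ≤ 2 * (2 * (γ * L)) * (8 / L) :=
            mul_le_mul (by linarith) hD measureReal_nonneg (by positivity)
        _ = 32 * γ := by field_simp; ring
    have h2 : 4 * (L : ℝ) ^ 2 * mu.real Z ≤ 4 := by
      calc 4 * (L : ℝ) ^ 2 * mu.real Z ≤ 4 * L ^ 2 * (1 / L ^ 2) :=
            mul_le_mul_of_nonneg_left hZ (by positivity)
        _ = 4 := by field_simp
    have h3 : (L : ℝ) / m ^ 2 ≤ L / (γ * L) ^ 2 :=
      div_le_div_of_nonneg_left L0 (by positivity) (pow_le_pow_left₀ (by positivity) m1 2)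
    have h4 : (L : ℝ) / m ^ 2 * (∫ x, ρ x * ((pos x : ℝ) - rem x + 1) ∂mu +
        4 * L ^ 2 * mu.real Z) ≤ L / (γ * L) ^ 2 * (8 * (γ ^ 3 * L)) :=
      (mul_le_mul_of_nonneg_left (show _ ≤ 8 * (γ ^ 3 * L) by linarith) (by positivity)).trans
        (mul_le_mul_of_nonneg_right h3 (by positivity))
    have h5 : (L : ℝ) / (γ * L) ^ 2 * (8 * (γ ^ 3 * L)) = 8 * γ := by field_simp
    linarith
  set ψ : Cir → ℝ := fun y => if t ≤ ρ (mv θ y m) then 1 else -1 with hψ
  have rψ : RB ψ 1 := ⟨Measurable.ite (measurableSet_le measurable_const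
    ((F.mρ _).comp (mv_meas _))) measurable_const measurable_const, fun y => by
      simp only [hψ]; split_ifs <;> simp⟩
  have bψ := (BR.rb rψ).comp g.mπ
  have bapx := ((bρ (v i)).sub (((bρ (v i)).mv (θ := θ) m).comp g.mπ)).abs
  have f2 := (abs_le.1 (hfx' i _ _ rψ)).2
  have f3 : ∫ x, (ρ0 x - t) * ψ (π x) ∂mu ≤ γ ^ 3 := by
    have := hslow (fun x => ψ (π x)) ⟨bψ.1, fun x => rψ.2 _⟩
      ((var_le hB.mD bψ (c := 0) (d := 2) le_rfl (fun x hx => by rw [g.π_step hx]; simp)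
        fun x => (abs_sub _ _).trans (by linarith [rψ.2 (π x), rψ.2 (π (mv θ x 1))])).trans (by
          rw [show (20 : ℝ) / L = 2 * (8 / L) + 4 / L by ring]
          have : (0 : ℝ) ≤ 4 / L := by positivity
          linarith))
    rw [mean0] at this
    exact (abs_le.1 this).2
  have bo := (bρ (v i)).mul ((BR.const 1).sub (bρ (v i)))
  have babs := ((BR.const ε).mul (bs i)).abs
  have fin := int_le (BR.const (t * (1 - t)))
    ((bo.add ((BR.const 2).mul bapx)).add ((((be i).mul bψ).add (bd0.mul bψ)).add babs)) fun x => by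
      have h1 := F.r01 (v i) x
      have h2 : t * (1 - t) ≤ ρ x * (1 - ρ x) + |ρ x - t| := by
        have e : t * (1 - t) - ρ x * (1 - ρ x) = (ρ x - t) * (ρ x + t - 1) := by ring
        have h3 : |ρ x + t - 1| ≤ 1 := abs_le.2 ⟨by linarith, by linarith⟩
        have h4 := le_abs_self ((ρ x - t) * (ρ x + t - 1))
        rw [abs_mul] at h4
        have := mul_le_of_le_one_right (abs_nonneg (ρ x - t)) h3
        linarith
      have h5 := le_abs_self (ρ x - ρ (mv θ (π x) m))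
      have h6 := neg_abs_le (ρ x - ρ (mv θ (π x) m))
      have h7 := le_abs_self (ε * s i (π x))
      have h8 := neg_abs_le (ε * s i (π x))
      change t * (1 - t) ≤ ρ x * (1 - ρ x) + 2 * |ρ x - ρ (mv θ (π x) m)| +
        ((ε * s i (π x) + ρ x - ρ0 x) * ψ (π x) + (ρ0 x - t) * ψ (π x) + |ε * s i (π x)|)
      simp only [hψ]
      split_ifs with h
      · have : |ρ x - t| ≤ 2 * |ρ x - ρ (mv θ (π x) m)| + (ρ x - t) :=
          abs_le.2 ⟨by linarith, by linarith⟩
        linarith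
      · push Not at h
        have : |ρ x - t| ≤ 2 * |ρ x - ρ (mv θ (π x) m)| - (ρ x - t) :=
          abs_le.2 ⟨by linarith, by linarith⟩
        linarith
  rw [integral_add ((bo.add ((BR.const 2).mul bapx)).int mu)
      (((((be i).mul bψ).add (bd0.mul bψ)).add babs).int mu),
    integral_add (bo.int mu) (((BR.const 2).mul bapx).int mu), integral_const_mul (2 : ℝ),
    integral_add ((((be i).mul bψ).add (bd0.mul bψ)).int mu) (babs.int mu),
    integral_add (((be i).mul bψ).int mu) ((bd0.mul bψ).int mu)] at fin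
  simp only [integral_const, probReal_univ, smul_eq_mul, one_mul] at fin
  have e5 : ε / L * 1 ≤ γ := by
    rw [mul_one]; exact (div_le_div_of_nonneg_right ε1 L0).trans iL
  have hoff' : ∫ x, F.ρ (v i) x * (1 - F.ρ (v i) x) ∂mu ≤ lam + 24 * γ := hoff
  have hap' : ∫ x, |F.ρ (v i) x - F.ρ (v i) (mv θ (π x) m)| ∂mu ≤ 40 * γ := hap
  linarith [hoff', hap', f2, f3, hεs, iL, γ3, e5, fin, γ0]

end Crest.Agent.H5.RI
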