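import Crest.Agent.H9.RI.Defs
import Crest.Agent.H5.RI.Fam

/-! Position, remaining length and start of the blocks defined by a set of block starts. -/

set_option autoImplicit false

open MeasureTheory Filter Topology Finset
open Crest.Agent.H2.RP Crest.Agent.H9.RI

noncomputable section

namespace Crest.Agent.H5.RI

variable {θ : ℝ}

theorem mv_mv (x : Cir) (a b : ℤ) : mv θ (mv θ x a) b = mv θ x (a + b) := by
  rw [mv, mv, mv, add_assoc, ← AddCircle.coe_add]; congr 2; push_cast; ring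

theorem mv_zero (x : Cir) : mv θ x 0 = x := by simp [mv]

theorem mv_mp (k : ℤ) : MeasurePreserving (fun x => mv θ x k) mu mu :=
  measurePreserving_add_right mu _

theorem mv_meas (k : ℤ) : Measurable fun x => mv θ x k := (mv_mp k).measurable

theorem int_mv (g : Cir → ℝ) (k : ℤ) : ∫ x, g (mv θ x k) ∂mu = ∫ x, g x ∂mu :=
  integral_add_right_eq_self g _

theorem BR.mv {g : Cir → ℝ} (h : BR g) (k : ℤ) : BR fun x => g (mv θ x k) := h.shift _

theorem BR.rb {g : Cir → ℝ} {R : ℝ} (h : RB g R) : BR g := ⟨h.1, R, h.2⟩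

theorem meas_mv_nat {n : Cir → ℕ} (hn : Measurable n) :
    Measurable fun x => mv θ x (-(n x : ℤ)) := by
  have h : Measurable fun z : Cir × ℕ => mv θ z.1 (-(z.2 : ℤ)) :=
    measurable_from_prod_countable_left fun k => mv_meas (-(k : ℤ))
  have h' : Measurable fun x : Cir => (x, n x) := measurable_id.prodMk hn
  exact h.comp h'

/-- geometry of the blocks -/
structure Geo (θ : ℝ) (D : Set Cir) (L : ℕ) (pos rem : Cir → ℕ) (π : Cir → Cir) : Prop where
  mpos : Measurable pos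
  mrem : Measurable rem
  mπ : Measurable π
  πdef : ∀ x, π x = mv θ x (-(pos x : ℤ))
  pos_lt : ∀ x, pos x < L
  rem_le : ∀ x, rem x ≤ L
  rem_pos : ∀ x, 1 ≤ rem x
  pos_mem : ∀ x, mv θ x (-(pos x : ℤ)) ∈ D
  rem_mem : ∀ x, mv θ x (rem x) ∈ D
  step : ∀ x, mv θ x 1 ∉ D → pos (mv θ x 1) = pos x + 1 ∧ rem (mv θ x 1) + 1 = rem x
  cut : ∀ x, mv θ x 1 ∈ D → pos (mv θ x 1) = 0 ∧ rem x = 1

theorem exists_geo {D : Set Cir} {L : ℕ} (mD : MeasurableSet D)
    (hit : ∀ x, ∃ i : ℕ, i < L ∧ mv θ x (-(i : ℤ)) ∈ D) : ∃ pos rem π, Geo θ D L pos rem π := by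
  classical
  have h1 : ∀ x, ∃ i : ℕ, mv θ x (-(i : ℤ)) ∈ D := fun x => (hit x).imp fun _ h => h.2
  have h2' : ∀ x, ∃ i : ℕ, i < L ∧ mv θ x ((i : ℤ) + 1) ∈ D := fun x => by
    obtain ⟨i, hi, h⟩ := hit (mv θ x L)
    rw [mv_mv] at h
    refine ⟨L - i - 1, by omega, ?_⟩
    rwa [show ((L - i - 1 : ℕ) : ℤ) + 1 = L + -(i : ℤ) by omega]
  have h2 : ∀ x, ∃ i : ℕ, mv θ x ((i : ℤ) + 1) ∈ D := fun x => (h2' x).imp fun _ h => h.2
  have m1 : Measurable fun x => Nat.find (h1 x) :=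
    measurable_find h1 fun i => mv_meas _ mD
  have m2 : Measurable fun x => Nat.find (h2 x) :=
    measurable_find h2 fun i => mv_meas _ mD
  refine ⟨fun x => Nat.find (h1 x), fun x => Nat.find (h2 x) + 1,
    fun x => mv θ x (-(Nat.find (h1 x) : ℤ)), m1, m2.add_const 1, ?_, fun _ => rfl, fun x => ?_,
    fun x => ?_, fun x => by omega, fun x => Nat.find_spec (h1 x), fun x => ?_, fun x hx => ⟨?_, ?_⟩,
    fun x hx => ⟨?_, ?_⟩⟩
  · exact meas_mv_nat m1
  · obtain ⟨i, hi, h⟩ := hit x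
    exact (Nat.find_min' (h1 x) h).trans_lt hi
  · obtain ⟨i, hi, h⟩ := h2' x
    have := Nat.find_min' (h2 x) h
    omega
  · simpa using Nat.find_spec (h2 x)
  · rw [Nat.find_eq_iff]
    refine ⟨?_, fun n hn hc => ?_⟩
    · rw [mv_mv]
      convert Nat.find_spec (h1 x) using 2
      push_cast; ring
    · rcases n with _ | n
      · exact hx (by simpa [mv_zero] using hc)
      · rw [mv_mv, show (1 : ℤ) + -((n + 1 : ℕ) : ℤ) = -(n : ℤ) by push_cast; ring] at hc
        exact Nat.find_min (h1 x) (by omega) hc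
  · show Nat.find (h2 (mv θ x 1)) + 1 + 1 = Nat.find (h2 x) + 1
    congr 1
    symm
    rw [Nat.find_eq_iff]
    refine ⟨?_, fun n hn hc => ?_⟩
    · have := Nat.find_spec (h2 (mv θ x 1))
      rw [mv_mv] at this
      convert this using 2
      push_cast; ring
    · rcases n with _ | n
      · exact hx (by simpa using hc)
      · refine Nat.find_min (h2 (mv θ x 1)) (m := n) (by omega) ?_
        rw [mv_mv]
        convert hc using 2
        push_cast; ring
  · rw [Nat.find_eq_zero]; simpa [mv_zero] using hx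
  · show Nat.find (h2 x) + 1 = 1
    rw [(Nat.find_eq_zero _).2 (by simpa using hx)]

namespace Geo
variable {D : Set Cir} {L : ℕ} {pos rem : Cir → ℕ} {π : Cir → Cir}

theorem π_step (g : Geo θ D L pos rem π) {x : Cir} (hx : mv θ x 1 ∉ D) : π (mv θ x 1) = π x := by
  rw [g.πdef, g.πdef, (g.step x hx).1, mv_mv]; congr 1; push_cast; ring

theorem back (g : Geo θ D L pos rem π) (x : Cir) (i : ℕ) (hi : i ≤ pos x) :
    pos (mv θ x (-(i : ℤ))) + i = pos x ∧ rem (mv θ x (-(i : ℤ))) = rem x + i := by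
  induction i with
  | zero => simp [mv_zero]
  | succ i ih =>
    obtain ⟨h1, h2⟩ := ih (by omega)
    have e : mv θ (mv θ x (-((i + 1 : ℕ) : ℤ))) 1 = mv θ x (-(i : ℤ)) := by
      rw [mv_mv]; congr 1; push_cast; ring
    have hD : mv θ (mv θ x (-((i + 1 : ℕ) : ℤ))) 1 ∉ D := fun hc => by
      have := (g.cut _ hc).1
      rw [e] at this; omega
    have := g.step _ hD
    rw [e] at this
    omega

theorem fwd (g : Geo θ D L pos rem π) (x : Cir) (n : ℕ)
    (h : ∀ i : ℤ, 0 < i → i ≤ n → mv θ x i ∉ D) :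
    π (mv θ x n) = π x ∧ pos (mv θ x n) = pos x + n ∧ rem (mv θ x n) + n = rem x := by
  induction n with
  | zero => simp [mv_zero]
  | succ n ih =>
    obtain ⟨h1, h2, h3⟩ := ih fun i h0 hi => h i h0 (by push_cast; omega)
    have e : mv θ (mv θ x n) 1 = mv θ x (n + 1 : ℕ) := by rw [mv_mv]; congr 1
    have hD : mv θ (mv θ x n) 1 ∉ D := by rw [e]; exact h _ (by omega) le_rfl
    have h4 := g.step _ hD
    have h5 := g.π_step hD
    rw [e] at h4 h5
    exact ⟨h5.trans h1, by omega, by omega⟩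

theorem sb (g : Geo θ D L pos rem π) {z : Cir × ℤ} (hz : z ∈ SB θ D) :
    π (mv θ z.1 z.2) = π z.1 ∧
      ((pos (mv θ z.1 z.2) : ℝ) - rem (mv θ z.1 z.2)) = pos z.1 - rem z.1 + 2 * z.2 := by
  obtain ⟨x, k⟩ := z
  simp only [SB, Set.mem_setOf_eq] at hz ⊢
  rcases le_total 0 k with hk | hk
  · obtain ⟨n, rfl⟩ := Int.eq_ofNat_of_zero_le hk
    obtain ⟨h1, h2, h3⟩ := g.fwd x n fun i h0 hi => hz i (Or.inl ⟨h0, hi⟩)
    refine ⟨h1, ?_⟩
    rw [h2, ← h3]; push_cast; ring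
  · obtain ⟨n, rfl⟩ := Int.exists_eq_neg_ofNat hk
    obtain ⟨h1, h2, h3⟩ := g.fwd (mv θ x (-(n : ℤ))) n fun i h0 hi => by
      rw [mv_mv]; exact hz _ (Or.inr ⟨by omega, by omega⟩)
    rw [mv_mv, neg_add_cancel, mv_zero] at h1 h2 h3
    refine ⟨h1.symm, ?_⟩
    rw [h2, ← h3]; push_cast; ring

theorem meas_small (g : Geo θ D L pos rem π) (mD : MeasurableSet D) (a : ℕ) :
    mu.real {x | pos x < a ∨ rem x < a} ≤ 2 * a * mu.real D := by
  have hs : {x | pos x < a ∨ rem x < a} ⊆ (⋃ i ∈ range a, (fun x => mv θ x (-(i : ℤ))) ⁻¹' D) ∪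
      ⋃ i ∈ range a, (fun x => mv θ x (i : ℤ)) ⁻¹' D := by
    rintro x (h | h)
    · exact Or.inl (Set.mem_biUnion (mem_range.2 h) (g.pos_mem x))
    · exact Or.inr (Set.mem_biUnion (mem_range.2 h) (g.rem_mem x))
  refine (measureReal_mono hs).trans ((measureReal_union_le _ _).trans ?_)
  have h1 := measureReal_biUnion_finset_le (μ := mu) (range a)
    fun i : ℕ => (fun x => mv θ x (-(i : ℤ))) ⁻¹' D
  have h2 := measureReal_biUnion_finset_le (μ := mu) (range a)
    fun i : ℕ => (fun x => mv θ x (i : ℤ)) ⁻¹' D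
  simp only [(mv_mp _).measureReal_preimage mD.nullMeasurableSet, sum_const, card_range,
    nsmul_eq_mul] at h1 h2
  linarith

/-- telescoping back to a fixed position of the block -/
theorem tele (g : Geo θ D L pos rem π) (ρ : Cir → ℝ) (a : ℕ) (x : Cir) (h1 : a ≤ pos x)
    (h2 : a ≤ rem x) :
    (a : ℝ) ^ 2 * |ρ x - ρ (mv θ (π x) a)| ≤ ∑ i ∈ range L,
      |ρ (mv θ (mv θ x (-((i : ℤ) + 1))) 1) - ρ (mv θ x (-((i : ℤ) + 1)))| *
        ((pos (mv θ (mv θ x (-((i : ℤ) + 1))) 1) : ℝ) * rem (mv θ (mv θ x (-((i : ℤ) + 1))) 1)) := by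
  have e : ρ x - ρ (mv θ (π x) a) =
      ∑ i ∈ range (pos x - a), (ρ (mv θ x (-(i : ℤ))) - ρ (mv θ x (-((i + 1 : ℕ) : ℤ)))) := by
    rw [sum_range_sub' (fun i : ℕ => ρ (mv θ x (-(i : ℤ)))), g.πdef, mv_mv]
    congr 2
    · simp [mv_zero]
    · congr 1; omega
  rw [e]
  refine le_trans ?_ (sum_le_sum_of_subset_of_nonneg
    (range_subset_range.2 (show pos x - a ≤ L by have := g.pos_lt x; omega))
    fun i _ _ => by positivity)
  refine (mul_le_mul_of_nonneg_left (abs_sum_le_sum_abs _ _) (by positivity)).trans ?_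
  rw [mul_sum]
  refine sum_le_sum fun i hi => ?_
  have hi' := mem_range.1 hi
  rw [mv_mv, show -((i : ℤ) + 1) + 1 = -(i : ℤ) by ring, mul_comm]
  obtain ⟨b1, b2⟩ := g.back x i (by omega)
  have c1 : (a : ℝ) ≤ pos (mv θ x (-(i : ℤ))) := by exact_mod_cast (by omega)
  have c2 : (a : ℝ) ≤ rem (mv θ x (-(i : ℤ))) := by exact_mod_cast (by omega)
  refine mul_le_mul (le_of_eq (by push_cast; rfl)) ?_ (by positivity) (abs_nonneg _)
  rw [sq]
  exact mul_le_mul c1 c2 (by positivity) (by positivity)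

end Geo

end Crest.Agent.H5.RI
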