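import Crest.Agent.H2.RP.Ker
import Crest.Agent.H5.RI.Zar

/-! Towers over the rotation: lifting functions, integration formula. -/

set_option autoImplicit false

open MeasureTheory Filter Topology Finset
open Crest.Agent.H2.RP

noncomputable section

namespace Crest.Agent.H5.RI

/-- `n θ` on the circle -/
abbrev ro (θ : ℝ) (n : ℕ) : Cir := n • (θ : Cir)

theorem ro_add (θ : ℝ) (m n : ℕ) : ro θ (m + n) = ro θ m + ro θ n := add_nsmul _ _ _

theorem ro_zero (θ : ℝ) : ro θ 0 = 0 := by simp [ro]

theorem ro_one (θ : ℝ) : ro θ 1 = (θ : Cir) := by simp [ro]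

/-- `A, A + θ, …, A + (L-1) θ` are disjoint -/
def Tw (θ : ℝ) (A : Set Cir) (L : ℕ) : Prop :=
  MeasurableSet A ∧ ∀ y ∈ A, ∀ i : ℕ, 0 < i → i < L → y + ro θ i ∉ A

/-- the union of the levels -/
def YY (θ : ℝ) (A : Set Cir) (L : ℕ) : Set Cir := {x | ∃ i < L, x - ro θ i ∈ A}

open Classical in
/-- the function equal to `c i y` at `y + iθ` -/
def lift (θ : ℝ) (A : Set Cir) (L : ℕ) (c : ℕ → Cir → ℝ) (x : Cir) : ℝ :=
  ∑ i ∈ range L, if x - ro θ i ∈ A then c i (x - ro θ i) else 0

variable {θ : ℝ} {A : Set Cir} {L : ℕ}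

theorem Tw.uniq (h : Tw θ A L) {x : Cir} {i j : ℕ} (hi : i < L) (hj : j < L)
    (h1 : x - ro θ i ∈ A) (h2 : x - ro θ j ∈ A) : i = j := by
  by_contra hne
  rcases lt_or_gt_of_ne hne with hl | hl
  · obtain ⟨k, rfl⟩ := Nat.exists_eq_add_of_lt hl
    refine h.2 _ h2 (k + 1) (by omega) (by omega) ?_
    rwa [add_assoc i, ro_add θ i, ← sub_sub, sub_add_cancel]
  · obtain ⟨k, rfl⟩ := Nat.exists_eq_add_of_lt hl
    refine h.2 _ h1 (k + 1) (by omega) (by omega) ?_
    rwa [add_assoc j, ro_add θ j, ← sub_sub, sub_add_cancel]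

theorem Tw.lift_at (h : Tw θ A L) (c : ℕ → Cir → ℝ) {y : Cir} (hy : y ∈ A) {i : ℕ} (hi : i < L) :
    lift θ A L c (y + ro θ i) = c i y := by
  rw [lift, sum_eq_single i]
  · simp [hy]
  · intro j hj hne
    rw [if_neg]
    exact fun hc => hne (h.uniq (mem_range.1 hj) hi hc (by simpa using hy))
  · intro hc; exact absurd (mem_range.2 hi) hc

theorem lift_off (c : ℕ → Cir → ℝ) {x : Cir} (hx : x ∉ YY θ A L) : lift θ A L c x = 0 :=
  sum_eq_zero fun i hi => if_neg fun hc => hx ⟨i, mem_range.1 hi, hc⟩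

theorem mem_YY {x : Cir} : x ∈ YY θ A L ↔ ∃ y ∈ A, ∃ i < L, x = y + ro θ i :=
  ⟨fun ⟨i, hi, h⟩ => ⟨_, h, i, hi, by simp⟩,
    fun ⟨y, hy, i, hi, e⟩ => ⟨i, hi, by simpa [e] using hy⟩⟩

theorem Tw.meas_YY (h : Tw θ A L) : MeasurableSet (YY θ A L) := by
  have : YY θ A L = ⋃ i ∈ range L, (fun x => x - ro θ i) ⁻¹' A := by ext x; simp [YY]
  rw [this]
  exact Finset.measurableSet_biUnion _ fun i _ => measurable_sub_const _ h.1

theorem Tw.meas_lift (h : Tw θ A L) {c : ℕ → Cir → ℝ} (hc : ∀ i, Measurable (c i)) :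
    Measurable (lift θ A L c) := by
  classical
  refine Finset.measurable_sum _ fun i _ => ?_
  exact Measurable.ite (measurable_sub_const _ h.1) ((hc i).comp (measurable_sub_const _))
    measurable_const

theorem Tw.lift_le (h : Tw θ A L) {c : ℕ → Cir → ℝ} {C : ℝ} (hC : 0 ≤ C)
    (hc : ∀ y ∈ A, ∀ i < L, |c i y| ≤ C) (x : Cir) : |lift θ A L c x| ≤ C := by
  by_cases hx : x ∈ YY θ A L
  · obtain ⟨y, hy, i, hi, rfl⟩ := mem_YY.1 hx
    rw [h.lift_at c hy hi]; exact hc y hy i hi
  · rw [lift_off c hx, abs_zero]; exact hC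

theorem Tw.int_lift (h : Tw θ A L) {g : Cir → ℝ} (hg : Measurable g) {c : ℕ → Cir → ℝ}
    (hc : ∀ i, Measurable (c i)) {B C : ℝ} (hB : ∀ x, |g x| ≤ B)
    (hC : ∀ y ∈ A, ∀ i < L, |c i y| ≤ C) :
    ∫ x, g x * lift θ A L c x ∂mu = ∫ y in A, ∑ i ∈ range L, g (y + ro θ i) * c i y ∂mu := by
  classical
  have hB0 : 0 ≤ B := (abs_nonneg _).trans (hB 0)
  have hi : ∀ i ∈ range L, Integrable (A.indicator fun y => g (y + ro θ i) * c i y) mu :=
    fun i hi => integrable_bdd mu
      (((hg.comp (measurable_add_const _)).mul (hc i)).indicator h.1) (B * |C|) fun y => by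
      by_cases hy : y ∈ A
      · rw [Set.indicator_of_mem hy, abs_mul]
        exact mul_le_mul (hB _) ((hC y hy i (mem_range.1 hi)).trans (le_abs_self _))
          (abs_nonneg _) hB0
      · rw [Set.indicator_of_notMem hy, abs_zero]; positivity
  have e : ∀ x, g x * lift θ A L c x =
      ∑ i ∈ range L, (A.indicator fun y => g (y + ro θ i) * c i y) (x - ro θ i) := fun x => by
    rw [lift, mul_sum]
    refine sum_congr rfl fun i _ => ?_
    by_cases hx : x - ro θ i ∈ A <;> simp [hx]
  simp only [e]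
  rw [integral_finsetSum _ fun i hi' => (hi i hi').comp_sub_right _,
    integral_finsetSum _ fun i hi' => (integrable_indicator_iff h.1).1 (hi i hi')]
  refine sum_congr rfl fun i _ => ?_
  rw [integral_sub_right_eq_self (A.indicator fun y => g (y + ro θ i) * c i y),
    integral_indicator h.1]

theorem Tw.lift_one (h : Tw θ A L) :
    lift θ A L (fun _ _ => 1) = (YY θ A L).indicator fun _ => 1 := by
  funext x
  by_cases hx : x ∈ YY θ A L
  · rw [Set.indicator_of_mem hx]
    obtain ⟨y, hy, i, hi, rfl⟩ := mem_YY.1 hx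
    exact h.lift_at _ hy hi
  · rw [Set.indicator_of_notMem hx, lift_off _ hx]

theorem Tw.meas_eq (h : Tw θ A L) : mu.real (YY θ A L) = L * mu.real A := by
  have := h.int_lift (g := fun _ => 1) measurable_const (c := fun _ _ => 1)
    (fun _ => measurable_const) (B := 1) (C := 1) (by simp) (by simp)
  rw [h.lift_one] at this
  simp only [one_mul, integral_indicator h.meas_YY] at this
  simpa [mul_comm] using this

theorem Tw.mul_le_one (h : Tw θ A L) : L * mu.real A ≤ 1 := by
  rw [← h.meas_eq]; exact measureReal_le_one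

/-- lifts with small steps are almost invariant -/
theorem Tw.almost_inv (h : Tw θ A L) (hL : 0 < L) {c : ℕ → Cir → ℝ}
    (h1 : ∀ y ∈ A, ∀ i < L, |c i y| ≤ 1)
    (h2 : ∀ y ∈ A, ∀ i, i + 1 < L → |c (i + 1) y - c i y| ≤ 2 / L) :
    ∫ x, |lift θ A L c (x + (θ : Cir)) - lift θ A L c x| ∂mu ≤ 6 / L := by
  have hL' : (0 : ℝ) < L := by exact_mod_cast hL
  set B : Set Cir := (fun x => x + (θ : Cir)) ⁻¹' A ∪ (fun x => x - ro θ (L - 1)) ⁻¹' A with hB
  have mB : MeasurableSet B :=
    (measurable_add_const _ h.1).union (measurable_sub_const _ h.1)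
  have hmB : mu.real B ≤ 2 / L := by
    refine (measureReal_union_le _ _).trans ?_
    rw [(measurePreserving_add_right mu _).measureReal_preimage h.1.nullMeasurableSet,
      (measurePreserving_sub_right mu _).measureReal_preimage h.1.nullMeasurableSet,
      le_div_iff₀ hL']
    linarith [h.mul_le_one]
  have hb := h.lift_le zero_le_one h1
  have key : ∀ x, |lift θ A L c (x + (θ : Cir)) - lift θ A L c x| ≤
      2 / L + B.indicator (fun _ => 2) x := fun x => by
    by_cases hx : x ∈ B
    · rw [Set.indicator_of_mem hx]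
      have : (0 : ℝ) ≤ 2 / L := by positivity
      exact (abs_sub _ _).trans (by linarith [hb (x + (θ : Cir)), hb x])
    · rw [Set.indicator_of_notMem hx, add_zero]
      simp only [hB, Set.mem_union, Set.mem_preimage, not_or] at hx
      by_cases hY : x ∈ YY θ A L
      · obtain ⟨y, hy, i, hi, rfl⟩ := mem_YY.1 hY
        have : i + 1 < L := by
          by_contra hc
          obtain rfl : i = L - 1 := by omega
          exact hx.2 (by simpa using hy)
        rw [add_assoc, ← ro_one θ, ← ro_add, h.lift_at c hy this, h.lift_at c hy hi]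
        exact h2 y hy i this
      · have : x + (θ : Cir) ∉ YY θ A L := by
          rintro ⟨i, hi, hc⟩
          rcases i with _ | i
          · exact hx.1 (by simpa [ro_zero] using hc)
          · refine hY ⟨i, by omega, ?_⟩
            rwa [ro_add, ro_one, add_sub_add_right_eq_sub] at hc
        rw [lift_off c hY, lift_off c this]
        simp only [sub_zero, abs_zero]; positivity
  have i2 : Integrable (B.indicator fun _ => (2 : ℝ)) mu := (integrable_const _).indicator mB
  refine (integral_mono_of_nonneg (Eventually.of_forall fun x => abs_nonneg _)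
    ((integrable_const _).add i2) (Eventually.of_forall key)).trans ?_
  rw [integral_add' (integrable_const _) i2, integral_indicator mB]
  simp only [integral_const, probReal_univ, smul_eq_mul, one_mul, MeasurableSet.univ,
    measureReal_restrict_apply, Set.univ_inter]
  rw [show (6 : ℝ) / L = 2 / L + 2 / L * 2 by ring]
  linarith

end Crest.Agent.H5.RI
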